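import Vale.Agent.P264Z.F.Basic

/-!
# P264, block F: coercivity and boundedness of the pairing, cell integrals
-/

open scoped ContDiff
open Set MeasureTheory intervalIntegral

noncomputable section

namespace Vale.Agent.P264Z

open F

theorem f2 : F2 := by
  intro p b W hp hb hW hb0 hb1
  have c0 := hW
  have c1 := cd1 c0
  have c2 := cd1 c1
  have c3 := cd1 c2
  have k0 := c0.continuous
  have k1 := c1.continuous
  have k2 := c2.continuous
  have k3 := c3.continuous
  have kL := (cdL hW).continuous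
  have kd := cont_dn hW
  unfold Dn Pr
  rw [← intervalIntegral.integral_const_mul]
  set γ : ℝ := 22 - p with hγ
  set δ : ℝ := p - 9 with hδ
  set ε : ℝ := -1 / 4 - (p - 9) * (p + 3) with hε
  set ζ : ℝ := -(ε * (p + 2)) / 2 with hζ
  have key := int_le hb.le (f := fun x => 1 / 4 * (x ^ p * dn W x))
    (g := fun x => x ^ (p + 2) * W x * Lop 10 W x)
    (Φ := fun x => x ^ (p + 4) * (W x * deriv (deriv (deriv W)) x)
      - x ^ (p + 4) * (deriv W x * deriv (deriv W) x)
      + γ * (x ^ (p + 3) * (W x * deriv (deriv W) x))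
      + δ * (x ^ (p + 3) * (deriv W x * deriv W x))
      + ε * (x ^ (p + 2) * (W x * deriv W x)) + ζ * (x ^ (p + 1) * (W x * W x)))
    (by fun_prop) (by fun_prop) (by fun_prop)
    (fun x _ => ((((((hasDerivAt_pow (p + 4) x).mul ((hd c0 x).mul (hd c3 x))).sub
      ((hasDerivAt_pow (p + 4) x).mul ((hd c1 x).mul (hd c2 x)))).add
      (((hasDerivAt_pow (p + 3) x).mul ((hd c0 x).mul (hd c2 x))).const_mul γ)).add
      (((hasDerivAt_pow (p + 3) x).mul ((hd c1 x).mul (hd c1 x))).const_mul δ)).add
      (((hasDerivAt_pow (p + 2) x).mul ((hd c0 x).mul (hd c1 x))).const_mul ε)).add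
      (((hasDerivAt_pow (p + 1) x).mul ((hd c0 x).mul (hd c0 x))).const_mul ζ))
    (fun x hx => by
      rw [L_eq hW]
      simp only [dn, Pi.mul_apply]
      have hx0 : 0 < x := hx.1
      rcases hp with rfl | rfl
      · norm_num [hγ, hδ, hε, hζ]
        have := mul_nonneg (sq_nonneg x) (show 0 ≤ 3 / 4 * (x ^ 2 * deriv (deriv W) x) ^ 2
          + 85 / 4 * (x ^ 2 * deriv (deriv W) x) * W x + 833 / 4 * W x ^ 2 by
            nlinarith [sq_nonneg (x ^ 2 * deriv (deriv W) x + 15 * W x), sq_nonneg (W x)])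
        nlinarith
      · norm_num [hγ, hδ, hε, hζ]
        have := mul_nonneg (pow_nonneg hx0.le 3) (show 0 ≤ 3 / 4 * (x ^ 2 * deriv (deriv W) x) ^ 2
          + 25 / 4 * (x ^ 2 * deriv (deriv W) x) * W x + 1429 / 4 * W x ^ 2 by
            nlinarith [sq_nonneg (x ^ 2 * deriv (deriv W) x + 5 * W x), sq_nonneg (W x)])
        nlinarith)
  simp only [hb0, hb1] at key
  simpa using key

theorem F.M_sq_le (G : ℝ → ℝ) (x : ℝ) : Mop 10 G x ^ 2 ≤ 12585 * dn G x := by
  rw [M_eq]
  unfold dn
  nlinarith [sq_nonneg (22 * (x ^ 2 * deriv (deriv G) x) - x * deriv G x),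
    sq_nonneg (110 * (x ^ 2 * deriv (deriv G) x) - G x),
    sq_nonneg (110 * (x * deriv G x) - 22 * G x)]

theorem F.amgm {U V A B η c₁ c₂ : ℝ} (hη : 0 < η) (hc₁ : 0 < c₁) (hU : U ^ 2 ≤ c₁ * A)
    (hV : V ^ 2 ≤ c₂ * B) : U * V ≤ η * A + c₁ * c₂ / η * B := by
  have h1 : U * V ≤ η / c₁ * U ^ 2 + c₁ / η * V ^ 2 := by
    have h2 : η / c₁ * U ^ 2 + c₁ / η * V ^ 2 - 2 * (U * V)
        = (η * U - c₁ * V) ^ 2 / (η * c₁) := by field_simp; ring
    have h3 : 0 ≤ (η * U - c₁ * V) ^ 2 / (η * c₁) := by positivity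
    have h4 : 0 ≤ η / c₁ * U ^ 2 + c₁ / η * V ^ 2 := by positivity
    linarith
  have h5 : η / c₁ * U ^ 2 ≤ η * A := by
    calc _ ≤ η / c₁ * (c₁ * A) := by gcongr
      _ = _ := by field_simp
  have h6 : c₁ / η * V ^ 2 ≤ c₁ * c₂ / η * B := by
    calc _ ≤ c₁ / η * (c₂ * B) := by gcongr
      _ = _ := by field_simp
  linarith

theorem f3 : F3 := by
  refine ⟨501 * 12585, by norm_num, ?_⟩
  intro p b η W G hp hb hη hW hG hb0 hb1
  have c0 := hW
  have c1 := cd1 c0
  have k0 := c0.continuous
  have k1 := c1.continuous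
  have kL := (cdL hG).continuous
  have kM := (cdM hG).continuous
  have kM1 := (cd1 (cdM hG)).continuous
  have kd := cont_dn hW
  have kd' := cont_dn hG
  have key : ∀ s : ℝ, s ^ 2 = 1 → s * Pr p b W G ≤ η * Dn p b W + 501 * 12585 / η * Dn p b G := by
    intro s hs
    unfold Dn Pr
    rw [← intervalIntegral.integral_const_mul, ← intervalIntegral.integral_const_mul,
      ← intervalIntegral.integral_const_mul, ← integral_add
        (Continuous.intervalIntegrable (by fun_prop) _ _)
        (Continuous.intervalIntegrable (by fun_prop) _ _)]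
    have key := int_le hb.le (f := fun x => s * (x ^ (p + 2) * W x * Lop 10 G x))
      (g := fun x => η * (x ^ p * dn W x) + 501 * 12585 / η * (x ^ p * dn G x))
      (Φ := fun x => s * ((x ^ (p + 2) * deriv W x + (p + 2) * (x ^ (p + 1) * W x)) * Mop 10 G x
        - x ^ (p + 2) * W x * deriv (Mop 10 G) x))
      (by fun_prop) (by fun_prop) (by fun_prop)
      (fun x _ => (((((hasDerivAt_pow (p + 2) x).mul (hd c1 x)).add
        (((hasDerivAt_pow (p + 1) x).mul (hd c0 x)).const_mul ((p : ℝ) + 2))).mul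
        (hd (cdM hG) x)).sub (((hasDerivAt_pow (p + 2) x).mul (hd c0 x)).mul
        (hdM hG x))).const_mul s)
      (fun x hx => by
        have hx0 : 0 < x := hx.1
        have hU : (s * (x ^ 2 * deriv (deriv W) x + 2 * (p + 2) * (x * deriv W x)
            + (p + 2) * (p + 1) * W x)) ^ 2 ≤ 501 * dn W x := by
          rw [mul_pow, hs, one_mul]
          unfold dn
          rcases hp with rfl | rfl
          · push_cast
            nlinarith [sq_nonneg (8 * (x ^ 2 * deriv (deriv W) x) - x * deriv W x),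
              sq_nonneg (12 * (x ^ 2 * deriv (deriv W) x) - W x),
              sq_nonneg (12 * (x * deriv W x) - 8 * W x), sq_nonneg (x ^ 2 * deriv (deriv W) x),
              sq_nonneg (x * deriv W x), sq_nonneg (W x)]
          · push_cast
            nlinarith [sq_nonneg (10 * (x ^ 2 * deriv (deriv W) x) - x * deriv W x),
              sq_nonneg (20 * (x ^ 2 * deriv (deriv W) x) - W x),
              sq_nonneg (20 * (x * deriv W x) - 10 * W x)]
        have h1 := mul_le_mul_of_nonneg_left (amgm hη (by norm_num) hU (M_sq_le G x))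
          (pow_nonneg hx0.le p)
        simp only [Pi.mul_apply, Pi.add_apply, Nat.add_succ_sub_one]
        push_cast
        refine le_of_eq_of_le ?_ (h1.trans_eq ?_)
        · ring
        · ring)
    simp only [hb0, hb1] at key
    simpa using key
  rw [abs_le]
  constructor
  · have := key (-1) (by norm_num); linarith
  · have := key 1 (by norm_num); linarith

theorem f9 : F9 := by
  refine ⟨12585, by norm_num, ?_⟩
  intro b c d G hc hcd hdb hG
  have kM := (cdM hG).continuous
  have kd := cont_dn hG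
  have h1 := cs hcd (h := fun x => x * Mop 10 G x) (F := fun _ => 12585)
    (G := fun x => x ^ 2 * dn G x) (by fun_prop) (by fun_prop) (by fun_prop)
    (fun _ _ => by norm_num) (fun x _ => mul_nonneg (sq_nonneg x) (dn_nn G x)) (fun x _ => by
      have := mul_le_mul_of_nonneg_left (M_sq_le G x) (sq_nonneg x)
      nlinarith)
  have h2 := int_sub hc hcd hdb (f := fun x => x ^ 2 * dn G x) (by fun_prop)
    (fun x _ => mul_nonneg (sq_nonneg x) (dn_nn G x))
  rw [intervalIntegral.integral_const, smul_eq_mul] at h1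
  unfold Dn
  have h3 : 0 ≤ (d - c) * 12585 := mul_nonneg (sub_nonneg.2 hcd) (by norm_num)
  nlinarith [mul_le_mul_of_nonneg_left h2 h3]

end Vale.Agent.P264Z
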