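import Vale.Agent.P264Z.F.Basic

/-!
# P264, block F: pointwise product bounds
-/

open scoped ContDiff
open Set

noncomputable section

namespace Vale.Agent.P264Z

open F

theorem F.prod_bound {a0 a1 a2 m0 m1 m2 A : ℝ} (h0 : |a0| ≤ A) (h1 : |a1| ≤ A) (h2 : |a2| ≤ A) :
    (a2 * m0 + 2 * (a1 * m1) + a0 * m2) ^ 2 ≤ 6 * A ^ 2 * (m2 ^ 2 + m1 ^ 2 + m0 ^ 2) := by
  have e0 : a0 ^ 2 ≤ A ^ 2 := by rw [← sq_abs]; gcongr
  have e1 : a1 ^ 2 ≤ A ^ 2 := by rw [← sq_abs]; gcongr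
  have e2 : a2 ^ 2 ≤ A ^ 2 := by rw [← sq_abs]; gcongr
  have : (a2 * m0 + 2 * (a1 * m1) + a0 * m2) ^ 2
      ≤ (a2 ^ 2 + 4 * a1 ^ 2 + a0 ^ 2) * (m2 ^ 2 + m1 ^ 2 + m0 ^ 2) := by
    nlinarith [sq_nonneg (a2 * m1 - 2 * a1 * m0), sq_nonneg (a2 * m2 - a0 * m0),
      sq_nonneg (2 * a1 * m2 - a0 * m1)]
  refine this.trans ?_
  gcongr
  linarith

theorem F.prod_bound1 {a0 a1 m0 m1 A : ℝ} (h0 : |a0| ≤ A) (h1 : |a1| ≤ A) :
    (a1 * m0 + a0 * m1) ^ 2 ≤ 2 * A ^ 2 * (m1 ^ 2 + m0 ^ 2) := by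
  have e0 : a0 ^ 2 ≤ A ^ 2 := by rw [← sq_abs]; gcongr
  have e1 : a1 ^ 2 ≤ A ^ 2 := by rw [← sq_abs]; gcongr
  have : (a1 * m0 + a0 * m1) ^ 2 ≤ (a1 ^ 2 + a0 ^ 2) * (m1 ^ 2 + m0 ^ 2) := by
    nlinarith [sq_nonneg (a1 * m1 - a0 * m0)]
  refine this.trans ?_
  gcongr
  linarith

theorem F.prod_bound0 {a0 m0 A : ℝ} (h0 : |a0| ≤ A) : (a0 * m0) ^ 2 ≤ A ^ 2 * m0 ^ 2 := by
  have e0 : a0 ^ 2 ≤ A ^ 2 := by rw [← sq_abs]; gcongr
  rw [mul_pow]; gcongr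

theorem f7a : F7a := by
  intro a m x A ha hm hx h0 h1 h2
  unfold dn
  rw [deriv2_mul' ha hm, deriv_mul' ha hm]
  have h1' : |x * deriv a x| ≤ A := by rwa [abs_mul, abs_of_nonneg hx]
  have h2' : |x ^ 2 * deriv (deriv a) x| ≤ A := by rwa [abs_mul, abs_of_nonneg (sq_nonneg x)]
  have b2 := prod_bound (m0 := m x) (m1 := x * deriv m x) (m2 := x ^ 2 * deriv (deriv m) x) h0 h1' h2'
  have b1 := prod_bound1 (m0 := m x) (m1 := x * deriv m x) h0 h1'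
  have b0 := prod_bound0 (m0 := m x) h0
  have p0 : 0 ≤ A ^ 2 * m x ^ 2 := by positivity
  have p1 : 0 ≤ A ^ 2 * (x * deriv m x) ^ 2 := by positivity
  have p2 : 0 ≤ A ^ 2 * (x ^ 2 * deriv (deriv m) x) ^ 2 := by positivity
  nlinarith

theorem f7b : F7b := by
  intro G Q b x d hG hQ hx hxb hb h0 h1 h2
  unfold dn dh
  rw [deriv2_mul' hG hQ, deriv_mul' hG hQ]
  have hv0 : 0 ≤ vw b x := by
    unfold vw; rw [sub_nonneg, div_le_one hb]; exact hxb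
  have hv1 : vw b x ≤ 1 := by
    unfold vw; have := div_nonneg hx hb.le; linarith
  have hd0 : 0 ≤ d := le_trans (by positivity) h2
  change _ ≤ 16 * d ^ 2 * (x ^ 4 * vw b x ^ 4 * _ + x ^ 2 * vw b x ^ 2 * _ + _)
  set v := vw b x
  have h2' : |x ^ 2 * deriv (deriv G) x| ≤ d := by rwa [abs_mul, abs_of_nonneg (sq_nonneg x)]
  have h1' : |x * deriv G x| ≤ d * v := by rwa [abs_mul, abs_of_nonneg hx]
  have hdv : d * v ≤ d := mul_le_of_le_one_right hd0 hv1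
  have hdv2 : d * v ^ 2 ≤ d * v := by nlinarith [mul_nonneg hd0 hv0]
  obtain ⟨g0, hg0, hg0'⟩ : ∃ g0, G x = g0 * v ^ 2 ∧ |g0| ≤ d := by
    rcases hv0.eq_or_lt with h | h
    · refine ⟨0, ?_, by simpa using hd0⟩
      rw [← h] at h0 ⊢
      simpa using h0
    · refine ⟨G x / v ^ 2, by field_simp, ?_⟩
      rw [abs_div, abs_of_nonneg (sq_nonneg v), div_le_iff₀ (by positivity)]
      exact h0
  obtain ⟨g1, hg1, hg1'⟩ : ∃ g1, x * deriv G x = g1 * v ∧ |g1| ≤ d := by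
    rcases hv0.eq_or_lt with h | h
    · refine ⟨0, ?_, by simpa using hd0⟩
      rw [← h, mul_zero] at h1' ⊢
      exact abs_nonpos_iff.1 h1'
    · refine ⟨x * deriv G x / v, by field_simp, ?_⟩
      rw [abs_div, abs_of_nonneg hv0, div_le_iff₀ h]
      exact h1'
  have b2 := prod_bound (m0 := Q x) (m1 := x * v * deriv Q x)
    (m2 := x ^ 2 * v ^ 2 * deriv (deriv Q) x) hg0' hg1' h2'
  have hg0v : |g0 * v| ≤ d := by
    rw [abs_mul, abs_of_nonneg hv0]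
    exact (mul_le_of_le_one_right (abs_nonneg _) hv1).trans hg0'
  have b1 := prod_bound1 (m0 := Q x) (m1 := x * v * deriv Q x) hg0v (h1'.trans hdv)
  have b0 := prod_bound0 (m0 := Q x) (h0.trans (hdv2.trans hdv))
  have p0 : 0 ≤ d ^ 2 * Q x ^ 2 := by positivity
  have p1 : 0 ≤ d ^ 2 * (x * v * deriv Q x) ^ 2 := by positivity
  have p2 : 0 ≤ d ^ 2 * (x ^ 2 * v ^ 2 * deriv (deriv Q) x) ^ 2 := by positivity
  have e2 : x ^ 4 * (deriv (deriv G) x * Q x + 2 * (deriv G x * deriv Q x)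
      + G x * deriv (deriv Q) x) ^ 2 = (x ^ 2 * deriv (deriv G) x * Q x
      + 2 * (g1 * (x * v * deriv Q x)) + g0 * (x ^ 2 * v ^ 2 * deriv (deriv Q) x)) ^ 2 := by
    have : g1 * (x * v * deriv Q x) = x * deriv G x * (x * deriv Q x) := by rw [hg1]; ring
    rw [this, hg0]; ring
  have e1 : x ^ 2 * (deriv G x * Q x + G x * deriv Q x) ^ 2
      = (x * deriv G x * Q x + g0 * v * (x * v * deriv Q x)) ^ 2 := by
    rw [hg0]; ring
  rw [e2, e1]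
  nlinarith

end Vale.Agent.P264Z
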