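import Vale.Agent.P264Z.F.Basic

/-!
# P264, block F: the decomposition `Mop m = A + B x + Z0`
-/

open scoped ContDiff Topology
open Set MeasureTheory intervalIntegral

noncomputable section

namespace Vale.Agent.P264Z.F

/-- Hardy's inequality on `[0,c]`. -/
theorem hardy (k : ℕ) {c : ℝ} (hc : 0 ≤ c) {V : ℝ → ℝ} (hV : ContDiff ℝ ∞ V) (h0 : V c = 0) :
    ((k : ℝ) + 1) ^ 2 * ∫ s in (0 : ℝ)..c, s ^ k * V s ^ 2
      ≤ 4 * ∫ s in (0 : ℝ)..c, s ^ (k + 2) * deriv V s ^ 2 := by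
  have k0 := hV.continuous
  have k1 := (cd1 hV).continuous
  rw [← intervalIntegral.integral_const_mul, ← intervalIntegral.integral_const_mul]
  have key := int_le hc (f := fun s => ((k : ℝ) + 1) ^ 2 * (s ^ k * V s ^ 2))
    (g := fun s => 4 * (s ^ (k + 2) * deriv V s ^ 2))
    (Φ := fun s => -(2 * ((k : ℝ) + 1)) * (s ^ (k + 1) * (V s * V s)))
    (by fun_prop) (by fun_prop) (by fun_prop)
    (fun x _ => ((hasDerivAt_pow (k + 1) x).mul ((hd hV x).mul (hd hV x))).const_mul _)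
    (fun x hx => by
      have h1 := mul_nonneg (pow_nonneg hx.1.le k)
        (sq_nonneg (((k : ℝ) + 1) * V x + 2 * x * deriv V x))
      simp only [Pi.mul_apply, Nat.add_succ_sub_one]
      push_cast
      refine sub_nonneg.1 (h1.trans_eq ?_)
      ring)
  simpa [h0] using key

/-- bounds on `m` from a bound on `x · Mop m` -/
theorem sup_of_M {X ζ : ℝ} {m : ℝ → ℝ} (hm : ContDiff ℝ ∞ m)
    (h : ∀ x ∈ Icc 0 X, |x * Mop 10 m x| ≤ ζ) {x : ℝ} (hx : x ∈ Icc 0 X) :
    |x * m x| ≤ ζ / 90 ∧ |x ^ 2 * deriv m x| ≤ ζ / 4 ∧ |x ^ 3 * deriv (deriv m) x| ≤ 8 * ζ := by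
  have c1 := cd1 hm
  have k0 := hm.continuous
  have k1 := c1.continuous
  have hζ : 0 ≤ ζ := (abs_nonneg _).trans (h x hx)
  have d0 : ∀ s, HasDerivAt (fun s => s ^ 11 * m s) (s ^ 11 * deriv m s + 11 * s ^ 10 * m s) s := by
    intro s
    refine HasDerivAt.congr_deriv ((hasDerivAt_pow 11 s).mul (hd hm s)) ?_
    push_cast; ring
  have d1 : ∀ s, HasDerivAt (fun s => s ^ 11 * deriv m s + 11 * s ^ 10 * m s)
      (s ^ 8 * (s * Mop 10 m s)) s := by
    intro s
    refine HasDerivAt.congr_deriv (((hasDerivAt_pow 11 s).mul (hd c1 s)).add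
      (((hasDerivAt_pow 10 s).const_mul 11).mul (hd hm s))) ?_
    rw [M_eq]; push_cast; ring
  have b1 : ∀ s ∈ Icc 0 X, ‖s ^ 11 * deriv m s + 11 * s ^ 10 * m s‖ ≤ ζ / 9 * s ^ 9 := by
    intro s hs
    refine image_norm_le_of_norm_deriv_right_le_deriv_boundary (a := 0) (b := X)
      (f := fun s => s ^ 11 * deriv m s + 11 * s ^ 10 * m s) (by fun_prop)
      (fun s _ => (d1 s).hasDerivWithinAt) (B := fun s => ζ / 9 * s ^ 9) (by simp)
      (fun s => (hasDerivAt_pow 9 s).const_mul _) (fun s hs => ?_) hs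
    rw [Real.norm_eq_abs, abs_mul, abs_of_nonneg (by positivity)]
    have := mul_le_mul_of_nonneg_left (h s ⟨hs.1, hs.2.le⟩) (by positivity : 0 ≤ s ^ 8)
    push_cast; linarith
  have b0 : ‖x ^ 11 * m x‖ ≤ ζ / 90 * x ^ 10 := by
    refine image_norm_le_of_norm_deriv_right_le_deriv_boundary (a := 0) (b := X)
      (f := fun s => s ^ 11 * m s) (by fun_prop)
      (fun s _ => (d0 s).hasDerivWithinAt) (B := fun s => ζ / 90 * s ^ 10) (by simp)
      (fun s => (hasDerivAt_pow 10 s).const_mul _) (fun s hs => ?_) hx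
    have := b1 s ⟨hs.1, hs.2.le⟩
    push_cast; linarith
  have b1x := b1 x hx
  rcases hx.1.eq_or_lt with h0 | h0
  · rw [← h0]; simp; refine ⟨by positivity, by positivity, by positivity⟩
  have e0 : |x * m x| ≤ ζ / 90 := by
    rw [Real.norm_eq_abs, show x ^ 11 * m x = x ^ 10 * (x * m x) by ring, abs_mul,
      abs_of_nonneg (by positivity), mul_comm (ζ / 90)] at b0
    exact le_of_mul_le_mul_left b0 (by positivity)
  have e1 : |x ^ 2 * deriv m x + 11 * (x * m x)| ≤ ζ / 9 := by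
    rw [Real.norm_eq_abs, show x ^ 11 * deriv m x + 11 * x ^ 10 * m x
      = x ^ 9 * (x ^ 2 * deriv m x + 11 * (x * m x)) by ring, abs_mul,
      abs_of_nonneg (by positivity), mul_comm (ζ / 9)] at b1x
    exact le_of_mul_le_mul_left b1x (by positivity)
  have e2 := h x hx
  rw [M_eq] at e2
  rw [abs_le] at e0 e1 e2
  refine ⟨abs_le.2 e0, abs_le.2 ⟨by linarith [e0.1, e0.2, e1.1], by linarith [e0.1, e0.2, e1.2]⟩,
    abs_le.2 ⟨?_, ?_⟩⟩
  · nlinarith [e0.1, e0.2, e1.1, e1.2, e2.1]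
  · nlinarith [e0.1, e0.2, e1.1, e1.2, e2.2]

/-- slope of the affine part -/
def Bc (b : ℝ) (m : ℝ → ℝ) : ℝ := deriv (Mop 10 m) (b / 2)

/-- constant term of the affine part -/
def Ac (b : ℝ) (m : ℝ → ℝ) : ℝ := Mop 10 m (b / 2) - b / 2 * Bc b m

/-- remainder -/
def Z0 (b : ℝ) (m : ℝ → ℝ) (x : ℝ) : ℝ := Mop 10 m x - Ac b m - Bc b m * x

variable {b : ℝ} {m : ℝ → ℝ}

theorem cdZ (hm : ContDiff ℝ ∞ m) : ContDiff ℝ ∞ (Z0 b m) := by
  have := cdM hm
  unfold Z0; fun_prop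

theorem Z1_eq (hm : ContDiff ℝ ∞ m) : deriv (Z0 b m) = fun x => deriv (Mop 10 m) x - Bc b m := by
  funext x
  have := (((hd (cdM hm) x).sub_const (Ac b m)).sub ((hasDerivAt_id' x).const_mul (Bc b m))).deriv
  refine this.trans ?_
  ring

theorem Z2_eq (hm : ContDiff ℝ ∞ m) : deriv (deriv (Z0 b m)) = Lop 10 m := by
  funext x
  rw [Z1_eq hm]
  exact ((hdM hm x).sub_const _).deriv

theorem hdZ1 (hm : ContDiff ℝ ∞ m) (x : ℝ) : HasDerivAt (deriv (Z0 b m)) (Lop 10 m x) x := by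
  rw [← Z2_eq (b := b) hm]; exact hd (cd1 (cdZ hm)) x

theorem Z0_half : Z0 b m (b / 2) = 0 := by unfold Z0 Ac; ring

theorem Z1_half (hm : ContDiff ℝ ∞ m) : deriv (Z0 b m) (b / 2) = 0 := by
  rw [Z1_eq hm]; simp [Bc]

theorem cont_En (p : ℕ) (hm : ContDiff ℝ ∞ m) :
    Continuous fun x => x ^ (p + 2) * vw b x ^ 2 * Lop 10 m x ^ 2 := by
  have := (cdL hm).continuous
  have := cont_vw b
  fun_prop

theorem En_sub (p : ℕ) (hm : ContDiff ℝ ∞ m) {c d : ℝ} (hc : 0 ≤ c) (hcd : c ≤ d) (hd : d ≤ b) :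
    (∫ x in c..d, x ^ (p + 2) * vw b x ^ 2 * Lop 10 m x ^ 2) ≤ En p b (vw b) m :=
  int_sub hc hcd hd (cont_En p hm) fun x hx => by have := hx.1; positivity

theorem En_nn (p : ℕ) (hb : 0 ≤ b) : 0 ≤ En p b (vw b) m :=
  integral_nonneg hb fun x hx => by have := hx.1; positivity

theorem vw_half (hb : 0 < b) {s : ℝ} (hs : s ≤ b / 2) : 1 ≤ 4 * vw b s ^ 2 := by
  have : s / b ≤ 1 / 2 := by rw [div_le_iff₀ hb]; linarith
  unfold vw; nlinarith

theorem moments (hb : 0 < b) (hm : ContDiff ℝ ∞ m) (h0 : m b = 0) (h1 : deriv m b = 0) {K : ℝ}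
    (h9 : (∫ x in (0 : ℝ)..b, x ^ 9 * Z0 b m x) ^ 2 ≤ b ^ 18 * K)
    (h10 : (∫ x in (0 : ℝ)..b, x ^ 10 * Z0 b m x) ^ 2 ≤ b ^ 20 * K) :
    (Ac b m * b) ^ 2 ≤ 10 ^ 7 * K ∧ (Bc b m * b ^ 2) ^ 2 ≤ 10 ^ 7 * K := by
  have c1 := cd1 hm
  have kZ := (cdZ (b := b) hm).continuous
  have e9 : (∫ x in (0 : ℝ)..b, x ^ 9 * Z0 b m x)
      = -(b ^ 9 * (Ac b m * b / 10 + Bc b m * b ^ 2 / 11)) := by
    rw [integral_eq_sub_of_hasDerivAt (f := fun s => s ^ 11 * deriv m s + 11 * s ^ 10 * m s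
      - Ac b m / 10 * s ^ 10 - Bc b m / 11 * s ^ 11)]
    · simp only [h0, h1]; ring
    · intro s _
      refine HasDerivAt.congr_deriv (((((hasDerivAt_pow 11 s).mul (hd c1 s)).add
        (((hasDerivAt_pow 10 s).const_mul 11).mul (hd hm s))).sub
        ((hasDerivAt_pow 10 s).const_mul (Ac b m / 10))).sub
        ((hasDerivAt_pow 11 s).const_mul (Bc b m / 11))) ?_
      unfold Z0; rw [M_eq]; push_cast; ring
    · exact Continuous.intervalIntegrable (by fun_prop) _ _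
  have e10 : (∫ x in (0 : ℝ)..b, x ^ 10 * Z0 b m x)
      = -(b ^ 10 * (Ac b m * b / 11 + Bc b m * b ^ 2 / 12)) := by
    rw [integral_eq_sub_of_hasDerivAt (f := fun s => s ^ 12 * deriv m s + 10 * s ^ 11 * m s
      - Ac b m / 11 * s ^ 11 - Bc b m / 12 * s ^ 12)]
    · simp only [h0, h1]; ring
    · intro s _
      refine HasDerivAt.congr_deriv (((((hasDerivAt_pow 12 s).mul (hd c1 s)).add
        (((hasDerivAt_pow 11 s).const_mul 10).mul (hd hm s))).sub
        ((hasDerivAt_pow 11 s).const_mul (Ac b m / 11))).sub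
        ((hasDerivAt_pow 12 s).const_mul (Bc b m / 12))) ?_
      unfold Z0; rw [M_eq]; push_cast; ring
    · exact Continuous.intervalIntegrable (by fun_prop) _ _
  rw [e9, neg_sq, mul_pow, ← pow_mul] at h9
  rw [e10, neg_sq, mul_pow, ← pow_mul] at h10
  have g9 := le_of_mul_le_mul_left h9 (by positivity)
  have g10 := le_of_mul_le_mul_left h10 (by positivity)
  set i₁ := Ac b m * b / 10 + Bc b m * b ^ 2 / 11 with hi₁
  set i₂ := Ac b m * b / 11 + Bc b m * b ^ 2 / 12 with hi₂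
  have eA : Ac b m * b = 1210 * i₁ - 1320 * i₂ := by rw [hi₁, hi₂]; ring
  have eB : Bc b m * b ^ 2 = 1452 * i₂ - 1320 * i₁ := by rw [hi₁, hi₂]; ring
  rw [eA, eB]
  have hK : 0 ≤ K := (sq_nonneg _).trans g9
  constructor
  · nlinarith [sq_nonneg (1210 * i₁ + 1320 * i₂)]
  · nlinarith [sq_nonneg (1452 * i₂ + 1320 * i₁)]

theorem int_inv_pow (k : ℕ) {x c : ℝ} (hx : 0 < x) (hxc : x ≤ c) :
    (∫ s in x..c, ((k : ℝ) + 1) / s ^ (k + 2)) ≤ 1 / x ^ (k + 1) := by
  have hc : 0 < c := hx.trans_le hxc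
  have hne : ∀ s ∈ Icc x c, s ≠ 0 := fun s hs => (hx.trans_le hs.1).ne'
  have key := int_le hxc (f := fun s => ((k : ℝ) + 1) / s ^ (k + 2)) (g := fun _ => 0)
    (Φ := fun s => (s ^ (k + 1))⁻¹)
    (continuousOn_const.div (by fun_prop) fun s hs => pow_ne_zero _ (hne s hs)) continuousOn_const
    (ContinuousOn.inv₀ (by fun_prop) fun s hs => pow_ne_zero _ (hne s hs))
    (fun s hs => (hasDerivAt_pow (k + 1) s).inv (pow_ne_zero _ (hne s (Ioo_subset_Icc_self hs))))
    (fun s hs => by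
      have := hne s (Ioo_subset_Icc_self hs)
      simp only [Nat.add_succ_sub_one]
      push_cast
      apply le_of_eq
      field_simp
      ring)
  have : 0 ≤ (c ^ (k + 1))⁻¹ := by positivity
  simp only [intervalIntegral.integral_zero] at key
  rw [one_div]; linarith

theorem Z0_left (hb : 0 < b) (hm : ContDiff ℝ ∞ m) {x : ℝ} (hx : x ∈ Icc 0 (b / 2)) :
    (x * Z0 b m x) ^ 2 ≤ 2 * En 3 b (vw b) m ∧
    (x ^ 2 * deriv (Z0 b m) x) ^ 2 ≤ En 3 b (vw b) m := by
  have hE := En_nn (m := m) 3 hb.le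
  rcases hx.1.eq_or_lt with h0 | h0
  · rw [← h0]; simp [hE]
  have kL := (cdL hm).continuous
  have hne : ∀ s ∈ Icc x (b / 2), s ≠ 0 := fun s hs => (h0.trans_le hs.1).ne'
  have hsub := En_sub 3 hm h0.le hx.2 (by linarith : b / 2 ≤ b)
  have hnn : 0 ≤ ∫ s in x..b / 2, s ^ (3 + 2) * vw b s ^ 2 * Lop 10 m s ^ 2 :=
    integral_nonneg hx.2 fun s hs => by have := h0.trans_le hs.1; positivity
  constructor
  · have e : Z0 b m x = ∫ s in x..b / 2, (s - x) * Lop 10 m s := by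
      rw [integral_eq_sub_of_hasDerivAt (f := fun s => (s - x) * deriv (Z0 b m) s - Z0 b m s)]
      · simp [Z0_half, Z1_half hm]
      · intro s _
        refine HasDerivAt.congr_deriv ((((hasDerivAt_id' s).sub_const x).mul (hdZ1 (b := b) hm s)).sub
          (hd (cdZ (b := b) hm) s)) ?_
        ring
      · exact Continuous.intervalIntegrable (by fun_prop) _ _
    have h1 := cs hx.2 (h := fun s => (s - x) * Lop 10 m s)
      (F := fun s => s ^ (3 + 2) * vw b s ^ 2 * Lop 10 m s ^ 2)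
      (G := fun s => 2 * ((((1 : ℕ) : ℝ) + 1) / s ^ (1 + 2))) (by fun_prop)
      (cont_En 3 hm).continuousOn
      (continuousOn_const.mul (continuousOn_const.div (by fun_prop)
        fun s hs => pow_ne_zero _ (hne s hs)))
      (fun s hs => by have := h0.trans hs.1; positivity)
      (fun s hs => by have := h0.trans hs.1; positivity)
      (fun s hs => by
        have h2 := h0.trans hs.1
        have h3 := vw_half hb hs.2.le
        have h4 : (s - x) ^ 2 ≤ s ^ 2 := by nlinarith [hs.1]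
        calc _ = (s - x) ^ 2 * Lop 10 m s ^ 2 * 1 := by ring
          _ ≤ s ^ 2 * Lop 10 m s ^ 2 * (4 * vw b s ^ 2) := by gcongr
          _ = _ := by push_cast; field_simp; ring)
    rw [← e, intervalIntegral.integral_const_mul] at h1
    have h2 := int_inv_pow 1 h0 hx.2
    have h3 : Z0 b m x ^ 2 ≤ En 3 b (vw b) m * (2 * (1 / x ^ (1 + 1))) := by
      refine h1.trans (mul_le_mul hsub (by linarith) ?_ hE)
      refine mul_nonneg (by norm_num) (integral_nonneg hx.2 fun s hs => ?_)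
      have := h0.trans_le hs.1; positivity
    calc _ = x ^ 2 * Z0 b m x ^ 2 := by ring
      _ ≤ x ^ 2 * (En 3 b (vw b) m * (2 * (1 / x ^ (1 + 1)))) := by gcongr
      _ = _ := by field_simp; ring
  · have e : -deriv (Z0 b m) x = ∫ s in x..b / 2, Lop 10 m s := by
      rw [integral_eq_sub_of_hasDerivAt (f := deriv (Z0 b m)) (fun s _ => hdZ1 hm s)
        (Continuous.intervalIntegrable (by fun_prop) _ _)]
      simp [Z1_half hm]
    have h1 := cs hx.2 (h := fun s => Lop 10 m s)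
      (F := fun s => s ^ (3 + 2) * vw b s ^ 2 * Lop 10 m s ^ 2)
      (G := fun s => (((3 : ℕ) : ℝ) + 1) / s ^ (3 + 2)) (by fun_prop)
      (cont_En 3 hm).continuousOn
      (continuousOn_const.div (by fun_prop) fun s hs => pow_ne_zero _ (hne s hs))
      (fun s hs => by have := h0.trans hs.1; positivity)
      (fun s hs => by have := h0.trans hs.1; positivity)
      (fun s hs => by
        have h2 := h0.trans hs.1
        have h3 := vw_half hb hs.2.le
        calc _ = Lop 10 m s ^ 2 * 1 := by ring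
          _ ≤ Lop 10 m s ^ 2 * (4 * vw b s ^ 2) := by gcongr
          _ = _ := by push_cast; field_simp; ring)
    rw [← e] at h1
    have h2 := int_inv_pow 3 h0 hx.2
    have h3 : (-deriv (Z0 b m) x) ^ 2 ≤ En 3 b (vw b) m * (1 / x ^ (3 + 1)) := by
      refine h1.trans (mul_le_mul hsub h2 ?_ hE)
      refine integral_nonneg hx.2 fun s hs => ?_
      have := h0.trans_le hs.1; positivity
    calc _ = x ^ 4 * (-deriv (Z0 b m) x) ^ 2 := by ring
      _ ≤ x ^ 4 * (En 3 b (vw b) m * (1 / x ^ (3 + 1))) := by gcongr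
      _ = _ := by field_simp; ring

theorem Z0_right (p : ℕ) (hb : 0 < b) (hm : ContDiff ℝ ∞ m) {x : ℝ} (hx : x ∈ Icc (b / 2) b) :
    Z0 b m x ^ 2 ≤ En p b (vw b) m * (b / 2 * (b ^ 2 / (b / 2) ^ (p + 2))) := by
  have hE := En_nn (m := m) p hb.le
  have kL := (cdL hm).continuous
  have hsub := En_sub p hm (by linarith : 0 ≤ b / 2) hx.1 hx.2
  have e : Z0 b m x = ∫ s in b / 2..x, (x - s) * Lop 10 m s := by
    rw [integral_eq_sub_of_hasDerivAt (f := fun s => (x - s) * deriv (Z0 b m) s + Z0 b m s)]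
    · simp [Z0_half, Z1_half hm]
    · intro s _
      refine HasDerivAt.congr_deriv ((((hasDerivAt_id' s).const_sub x).mul (hdZ1 (b := b) hm s)).add
        (hd (cdZ (b := b) hm) s)) ?_
      ring
    · exact Continuous.intervalIntegrable (by fun_prop) _ _
  have h1 := cs hx.1 (h := fun s => (x - s) * Lop 10 m s)
    (F := fun s => s ^ (p + 2) * vw b s ^ 2 * Lop 10 m s ^ 2)
    (G := fun _ => b ^ 2 / (b / 2) ^ (p + 2)) (by fun_prop)
    (cont_En p hm).continuousOn continuousOn_const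
    (fun s hs => by have : 0 < s := by linarith [hs.1]
                    positivity)
    (fun s hs => by positivity)
    (fun s hs => by
      have h2 : 0 < s := by linarith [hs.1]
      have h3 : (x - s) ^ 2 ≤ b ^ 2 * vw b s ^ 2 := by
        have : b * vw b s = b - s := by unfold vw; field_simp
        rw [← mul_pow, this]
        nlinarith [hs.2, hx.2]
      have h4 : 1 ≤ s ^ (p + 2) / (b / 2) ^ (p + 2) := by
        rw [one_le_div (by positivity)]
        exact pow_le_pow_left₀ (by positivity) hs.1.le _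
      calc _ = (x - s) ^ 2 * Lop 10 m s ^ 2 * 1 := by ring
        _ ≤ b ^ 2 * vw b s ^ 2 * Lop 10 m s ^ 2 * (s ^ (p + 2) / (b / 2) ^ (p + 2)) := by gcongr
        _ = _ := by ring)
  rw [← e, intervalIntegral.integral_const, smul_eq_mul] at h1
  refine h1.trans (mul_le_mul hsub ?_ ?_ hE)
  · gcongr; linarith [hx.2]
  · exact mul_nonneg (sub_nonneg.2 hx.1) (by positivity)

end Vale.Agent.P264Z.F
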